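import Vale.Agent.P165.H199.Val

/-!
Block G4: the finite-volume ghost magnetizations of deep vertices are comparable to the supremum.
-/

open Finset

set_option linter.unusedSectionVars false

namespace Vale.Agent.P165.H326

open Vale.Agent.P151 (Ex Cn cl csz edgesIn EV con tau csz_pos csz_mono csz_eq csz_image EV_aut
  le_EV EV_le EV_nonneg Ex_edgesIn_mono exists_lt_Ex harris Ex_mono Ex_const Ex_nonneg con_mono
  con_nonneg)
open Vale.Agent.P165.LF
open Vale.Agent.P165.H199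

variable {V : Type} [DecidableEq V]

lemma mono_mag {t : ℝ} (t0 : 0 ≤ t) (t1 : t ≤ 1) (x : V) :
    Monotone (fun S : Finset (Sym2 V) => 1 - t ^ csz S x) := by
  intro S T h
  exact sub_le_sub_left (pow_le_pow_of_le_one t0 t1 (csz_mono h x)) 1

lemma mag_le_one {t : ℝ} (t0 : 0 ≤ t) (x : V) (S : Finset (Sym2 V)) : 1 - t ^ csz S x ≤ 1 := by
  have := pow_nonneg t0 (csz S x)
  linarith only [this]

lemma mag_nonneg {t : ℝ} (t0 : 0 ≤ t) (t1 : t ≤ 1) (x : V) (S : Finset (Sym2 V)) :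
    0 ≤ 1 - t ^ csz S x := sub_nonneg.2 (pow_le_one₀ t0 t1)

lemma mag_ge {t : ℝ} (t0 : 0 ≤ t) (t1 : t ≤ 1) (x : V) (S : Finset (Sym2 V)) :
    1 - t ≤ 1 - t ^ csz S x := by
  have h := pow_le_pow_of_le_one t0 t1 (csz_pos S x)
  rw [pow_one] at h
  exact sub_le_sub_left h 1

/-- the magnetization is invariant under automorphisms -/
lemma mI_aut (G : SimpleGraph V) (q t : ℝ) (g : G ≃g G) (x : V) :
    mI G q t (g x) = mI G q t x := by
  unfold mI
  rw [← EV_aut G g q (fun S => 1 - t ^ csz S (g x))]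
  congr 1
  funext S
  rw [csz_image g.injective]

/-- Harris: comparison of two vertices -/
lemma mI_comp {G : SimpleGraph V} (hG : G.Connected) {q t : ℝ} (h0 : 0 < q) (h1 : q ≤ 1)
    (t0 : 0 ≤ t) (t1 : t ≤ 1) (w z : V) :
    q ^ G.dist w z * mI G q t z ≤ mI G q t w := by
  obtain ⟨F1, hF1⟩ := exists_finset_pow_dist_le hG w z
  have hq : 0 < q ^ G.dist w z := pow_pos h0 _
  have key : ∀ F : Finset V, q ^ G.dist w z * Ex q (edgesIn G F) (fun S => 1 - t ^ csz S z) ≤
      mI G q t w := by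
    intro F
    set F' := F ∪ F1 with hF'
    have a1 := hF1 F' subset_union_right q h0.le h1
    have a2 : Ex q (edgesIn G F) (fun S => 1 - t ^ csz S z) ≤
        Ex q (edgesIn G F') (fun S => 1 - t ^ csz S z) :=
      Ex_edgesIn_mono h0.le h1 (mono_mag t0 t1 z) subset_union_left
    have a3 : 0 ≤ Ex q (edgesIn G F') (fun S => 1 - t ^ csz S z) :=
      Ex_nonneg h0.le h1 (fun S _ => mag_nonneg t0 t1 z S)
    have a4 := harris h0.le h1 (edgesIn G F') (con_mono w z) (mono_mag t0 t1 z)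
    have a5 : Ex q (edgesIn G F') (fun S => con w z S * (1 - t ^ csz S z)) ≤
        Ex q (edgesIn G F') (fun S => 1 - t ^ csz S w) := by
      refine Ex_mono h0.le h1 (fun S _ => ?_)
      by_cases h : Cn S w z
      · rw [csz_eq h]
        have h2 : con w z S = 1 := by
          unfold Vale.Agent.P151.con
          rw [if_pos h]
        rw [h2, one_mul]
      · have h2 : con w z S = 0 := by
          unfold Vale.Agent.P151.con
          rw [if_neg h]
        rw [h2, zero_mul]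
        exact mag_nonneg t0 t1 w S
    have a6 : Ex q (edgesIn G F') (fun S => 1 - t ^ csz S w) ≤ mI G q t w :=
      le_EV h0.le h1 (mag_le_one t0 w) F'
    calc q ^ G.dist w z * Ex q (edgesIn G F) (fun S => 1 - t ^ csz S z)
        ≤ q ^ G.dist w z * Ex q (edgesIn G F') (fun S => 1 - t ^ csz S z) :=
          mul_le_mul_of_nonneg_left a2 hq.le
      _ ≤ Ex q (edgesIn G F') (con w z) * Ex q (edgesIn G F') (fun S => 1 - t ^ csz S z) :=
          mul_le_mul_of_nonneg_right a1 a3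
      _ ≤ _ := a4.trans (a5.trans a6)
  have h2 : mI G q t z ≤ mI G q t w / q ^ G.dist w z := by
    refine EV_le (fun F => ?_)
    rw [le_div_iff₀ hq, mul_comm]
    exact key F
  rw [le_div_iff₀ hq, mul_comm] at h2
  exact h2

/-- the infinite-volume magnetizations are comparable -/
theorem mI_ge_mM {G : SimpleGraph V} [G.LocallyFinite] (hG : G.Connected) {R : ℕ}
    (hR : ∀ x y : V, ∃ φ : G ≃g G, φ y ∈ ballF G x R) {q t : ℝ} (h0 : 0 < q) (h1 : q ≤ 1)
    (t0 : 0 ≤ t) (t1 : t ≤ 1) (w : V) : q ^ R * mM G q t ≤ mI G q t w := by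
  haveI : Nonempty V := ⟨w⟩
  have hq : 0 < q ^ R := pow_pos h0 _
  have h2 : mM G q t ≤ mI G q t w / q ^ R := by
    refine ciSup_le (fun v => ?_)
    obtain ⟨φ, hφ⟩ := hR w v
    rw [le_div_iff₀ hq, mul_comm, ← mI_aut G q t φ v]
    refine le_trans ?_ (mI_comp hG h0 h1 t0 t1 w (φ v))
    have h3 : G.dist w (φ v) ≤ R := by
      obtain ⟨p, hp⟩ := dist_le_of_mem_ballF G w R (φ v) hφ
      rw [SimpleGraph.dist_comm]
      exact (SimpleGraph.dist_le p).trans hp
    have h4 : 0 ≤ mI G q t (φ v) :=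
      EV_nonneg h0.le h1 (mag_nonneg t0 t1 _) (mag_le_one t0 _)
    exact mul_le_mul_of_nonneg_right (pow_le_pow_of_le_one h0.le h1 h3) h4
  rw [le_div_iff₀ hq, mul_comm] at h2
  exact h2

/-- **G4** -/
theorem g4 {G : SimpleGraph V} [G.LocallyFinite] (hG : G.Connected)
    (hqt : IsQuasiTransitive G) : G4 G := by
  obtain ⟨R, hR⟩ := exists_radius G hG hqt
  intro q₀ hq₀
  have hm0 : 0 < min q₀ 1 := lt_min hq₀ one_pos
  have hm1 : min q₀ 1 ≤ 1 := min_le_right _ _
  have hp1 : (min q₀ 1) ^ R ≤ 1 := pow_le_one₀ hm0.le hm1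
  have hp0 : 0 < (min q₀ 1) ^ R := pow_pos hm0 _
  refine ⟨(min q₀ 1) ^ R / 2, by positivity, by linarith only [hp1, hp0],
    fun q t hq h1 t0 t1 W => ?_⟩
  have h0 : 0 < q := hq₀.trans_le hq
  have hex : ∀ w : V, ∃ F : Finset V, mI G q t w / 2 <
      Ex q (edgesIn G F) (fun S => 1 - t ^ csz S w) := by
    intro w
    refine exists_lt_Ex ?_
    have h2 : 1 - t ≤ mI G q t w := by
      refine le_trans ?_ (le_EV h0.le h1 (mag_le_one t0.le w) ∅)
      have h3 := Ex_mono h0.le h1 (Λ := edgesIn G (∅ : Finset V))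
        (F := fun _ => (1 - t : ℝ)) (G := fun S => 1 - t ^ csz S w)
        (fun S _ => mag_ge t0.le t1.le w S)
      rwa [Ex_const] at h3
    change mI G q t w / 2 < mI G q t w
    linarith only [h2, t1]
  choose Fw hFw using hex
  refine ⟨W.biUnion Fw, fun F hF w hw => ?_⟩
  have b1 : Ex q (edgesIn G (Fw w)) (fun S => 1 - t ^ csz S w) ≤ mF G q t F w :=
    Ex_edgesIn_mono h0.le h1 (mono_mag t0.le t1.le w)
      ((subset_biUnion_of_mem Fw hw).trans hF)
  have b2 := mI_ge_mM hG hR h0 h1 t0.le t1.le w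
  have b3 : 0 ≤ mM G q t := Real.iSup_nonneg (fun v =>
    EV_nonneg h0.le h1 (mag_nonneg t0.le t1.le _) (mag_le_one t0.le _))
  have b4 : (min q₀ 1) ^ R ≤ q ^ R :=
    pow_le_pow_left₀ hm0.le ((min_le_left _ _).trans hq) R
  have b5 : (min q₀ 1) ^ R * mM G q t ≤ q ^ R * mM G q t := mul_le_mul_of_nonneg_right b4 b3
  have b6 := hFw w
  linarith only [b1, b2, b5, b6]

end Vale.Agent.P165.H326
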