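import Vale.Agent.P165.H326.MomLow
import Vale.Agent.P165.H199.BAMain

/-!
# Block (E3)
-/

set_option autoImplicit false
set_option linter.unusedSectionVars false

namespace Vale.Agent.P165.H326

open Vale.Agent.P165.H199

variable {V : Type} [DecidableEq V] {G : SimpleGraph V}

/-- **Block (E3)**: `c_k (p_c - p)^(1-2k) ≤ E_p|K|^k`. -/
theorem e3 [Infinite V] [G.LocallyFinite] (hG : G.Connected) (hqt : IsQuasiTransitive G)
    (hna : 0 < vertexCheeger G) : E3 G :=
  e3_of hG hqt hna (H177.tailUp hG hqt hna (ba1 hG hqt hna))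

end Vale.Agent.P165.H326
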