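import Vale.Agent.P165.H177.Low
import Vale.Agent.P165.H199.Mom

/-!
# Lower bounds for the moments of the cluster size below `p_c`
-/

set_option autoImplicit false
set_option linter.unusedSectionVars false

open Finset

namespace Vale.Agent.P165.H326

open Vale.Agent.P151 (Ex Cn cl csz edgesIn EV con tau)
open Vale.Agent.P165.LF Vale.Agent.P165.BS Vale.Agent.P165.BS2 Vale.Agent.P165.H794
open Vale.Agent.P165.H199 Vale.Agent.P165.H177

variable {V : Type} [DecidableEq V] {G : SimpleGraph V}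

/-- Block (E3) from the upper bound for the critical tail. -/
theorem e3_of [Infinite V] [G.LocallyFinite] (hG : G.Connected) (hqt : IsQuasiTransitive G)
    (hna : 0 < vertexCheeger G) (hU : TailUp G) : E3 G := by
  have hne : Nonempty V := hG.nonempty
  have hpc0 := pc_pos (G := G) hG hqt
  have hpc1 := pc_lt_one (G := G) hG hqt hna
  obtain ⟨A, hA, hup⟩ := hU
  obtain ⟨d, hd1, hd⟩ := LF.exists_degree_bound (G := G) hqt
  have hd1' : (1 : ℝ) ≤ d := by exact_mod_cast hd1
  have hp20 : 0 < pc G / 2 := by linarith only [hpc0]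
  obtain ⟨c0, hc0, hc01, hvol⟩ := exists_vol_lower hG hqt hp20 (by linarith only [hpc1, hpc0])
  set c1 := (1 - pc G) / (2 * d) with hc1
  have h1pc : 0 < 1 - pc G := by linarith only [hpc1]
  have hc10 : 0 < c1 := by positivity
  set κ := min (pc G / 2) (c0 * c1 / (4 * A)) with hκ
  have hκ0 : 0 < κ := lt_min hp20 (by positivity)
  have hκ1 : κ ≤ pc G / 2 := min_le_left _ _
  have hκ2 : κ ≤ c0 * c1 / (4 * A) := min_le_right _ _
  intro k hk
  obtain ⟨j, rfl⟩ : ∃ j, k = j + 1 := ⟨k - 1, by omega⟩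
  have hexp : 2 * (j + 1) - 1 = 2 * j + 1 := by omega
  rw [hexp]
  refine ⟨min (κ ^ (2 * j + 1)) ((κ ^ 2 / 2) ^ j * (c0 * c1 / 2)),
    lt_min (by positivity) (by positivity), fun q hq0 hq2 x => ?_⟩
  have hD : 0 < pc G - q := by linarith only [hq2]
  have hq11 : q ≤ 1 := hq2.le.trans hpc1.le
  set D := pc G - q with hDdef
  rcases lt_or_ge κ D with hB | hB
  · -- far from the critical point
    refine ⟨∅, ?_⟩
    have h1 : min (κ ^ (2 * j + 1)) ((κ ^ 2 / 2) ^ j * (c0 * c1 / 2)) / D ^ (2 * j + 1) ≤ 1 := by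
      rw [div_le_one (by positivity)]
      exact (min_le_left _ _).trans (pow_le_pow_left₀ hκ0.le hB.le _)
    refine h1.trans ?_
    have h2 := Vale.Agent.P151.Ex_mono hq0 hq11 (Λ := edgesIn G (∅ : Finset V))
      (F := fun _ => (1 : ℝ)) (G := fun S => (csz S x : ℝ) ^ (j + 1)) (fun S _ => by
        have h3 : 1 ≤ csz S x := Vale.Agent.P151.csz_pos S x
        have h4 : (1 : ℝ) ≤ csz S x := by exact_mod_cast h3
        exact one_le_pow₀ h4)
    rwa [Vale.Agent.P151.Ex_const] at h2
  · -- near the critical point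
    have hq1 : pc G / 2 ≤ q := by linarith only [hDdef, hB, hκ1]
    have hs : Sub G q := sub_of_lt_pc hG hqt hq0 hq2 hq11
    have hX1 : 1 ≤ chi G q := one_le_chi hq0 hq11 hs
    have hX0 : 0 < chi G q := by linarith only [hX1]
    have e2 : c1 / D ≤ chi G q := chi_ge hG hd1 hd hpc1 hq0 hq2 hs
    set y : ℝ := (κ / D) ^ 2 with hy
    have hκD : 1 ≤ κ / D := by rw [le_div_iff₀ hD]; linarith only [hB]
    have hy1 : 1 ≤ y := one_le_pow₀ hκD
    set n : ℕ := ⌊y⌋₊ with hn
    have hn1 : 1 ≤ n := by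
      rw [hn, Nat.one_le_floor_iff]
      exact hy1
    have hny : (n : ℝ) ≤ y := Nat.floor_le (by linarith only [hy1])
    have hny2 : y / 2 ≤ n := by
      have h1 : y < n + 1 := Nat.lt_floor_add_one y
      have h2 : (1 : ℝ) ≤ n := by exact_mod_cast hn1
      linarith only [h1, h2]
    have hsq : √(n : ℝ) ≤ κ / D := by
      rw [Real.sqrt_le_left (by positivity)]
      exact hny
    -- lower bound for the susceptibility
    have e3 : 4 * A * √(n : ℝ) ≤ c0 * (c1 / D) := by
      have h2 : 4 * A * κ ≤ c0 * c1 := by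
        rw [le_div_iff₀ (by positivity)] at hκ2
        linarith only [hκ2]
      calc 4 * A * √(n : ℝ) ≤ 4 * A * (κ / D) := mul_le_mul_of_nonneg_left hsq (by positivity)
        _ = 4 * A * κ / D := by ring
        _ ≤ c0 * c1 / D := div_le_div_of_nonneg_right h2 hD.le
        _ = c0 * (c1 / D) := by ring
    have e3' : c0 * (c1 / D) ≤ c0 * chi G q := mul_le_mul_of_nonneg_left e2 hc0.le
    obtain ⟨F0, hF0⟩ := hvol q hq1 hq11 hs {x}
    have e4 := hF0 F0 subset_rfl x (Finset.mem_singleton_self x)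
    refine ⟨F0, ?_⟩
    set Λ := edgesIn G F0 with hΛ
    have e5 : Ex q Λ (fun S => (csz S x : ℝ) * (1 - ind (n ≤ csz S x))) ≤
        2 * A * √(n : ℝ) := by
      refine (trunc_le (G := G) hq0 hq11 n F0 x).trans ?_
      calc ∑ k ∈ Finset.range n, Ex q (edgesIn G F0) (fun S => ind (k + 1 ≤ csz S x))
          ≤ ∑ k ∈ Finset.range n, A * (1 / √((k : ℝ) + 1)) := by
            refine Finset.sum_le_sum fun k _ => ?_
            have h1 := hup (k + 1) (Nat.le_add_left 1 k) x F0
            have h2 := Vale.Agent.P151.Ex_mono_p hq0 hq2.le hpc1.le (edgesIn G F0)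
              (tail_mono (k + 1) x)
            refine (h2.trans h1).trans (le_of_eq ?_)
            push_cast
            rw [mul_one_div]
        _ = A * ∑ k ∈ Finset.range n, 1 / √((k : ℝ) + 1) := by rw [Finset.mul_sum]
        _ ≤ A * (2 * √(n : ℝ)) := mul_le_mul_of_nonneg_left (sum_inv_sqrt_le n) hA.le
        _ = _ := by ring
    have e6 : vol G q (x, F0) = Ex q Λ (fun S => (csz S x : ℝ) * (1 - ind (n ≤ csz S x))) +
        Ex q Λ (fun S => (csz S x : ℝ) * ind (n ≤ csz S x)) := by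
      rw [← Vale.Agent.P151.Ex_add]
      unfold vol
      exact Vale.Agent.P151.Ex_congr q fun S _ => by ring
    have e7 : c0 * (c1 / D) / 2 ≤ Ex q Λ (fun S => (csz S x : ℝ) * ind (n ≤ csz S x)) := by
      linarith only [e3, e3', e4, e5, e6]
    have e8 : (n : ℝ) ^ j * Ex q Λ (fun S => (csz S x : ℝ) * ind (n ≤ csz S x)) ≤
        Ex q Λ (fun S => (csz S x : ℝ) ^ (j + 1)) := by
      rw [← Vale.Agent.P151.Ex_const_mul]
      refine Vale.Agent.P151.Ex_mono hq0 hq11 fun S _ => ?_
      have hc : (0 : ℝ) ≤ csz S x := Nat.cast_nonneg _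
      by_cases h : n ≤ csz S x
      · rw [ind_true h, mul_one, pow_succ]
        have h3 : (n : ℝ) ≤ csz S x := by exact_mod_cast h
        exact mul_le_mul_of_nonneg_right (pow_le_pow_left₀ (Nat.cast_nonneg n) h3 j) hc
      · rw [ind_false h, mul_zero, mul_zero]
        positivity
    refine le_trans ?_ e8
    have e9 : (y / 2) ^ j * (c0 * (c1 / D) / 2) ≤
        (n : ℝ) ^ j * Ex q Λ (fun S => (csz S x : ℝ) * ind (n ≤ csz S x)) :=
      mul_le_mul (pow_le_pow_left₀ (by positivity) hny2 j) e7 (by positivity) (by positivity)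
    refine le_trans ?_ e9
    have e10 : (y / 2) ^ j * (c0 * (c1 / D) / 2) =
        (κ ^ 2 / 2) ^ j * (c0 * c1 / 2) / D ^ (2 * j + 1) := by
      have f1 : y / 2 = κ ^ 2 / 2 / D ^ 2 := by rw [hy, div_pow]; ring
      have f2 : D ^ (2 * j + 1) = (D ^ 2) ^ j * D := by rw [pow_succ, pow_mul]
      have f3 : c0 * (c1 / D) / 2 = c0 * c1 / 2 / D := by ring
      rw [f1, f2, f3, div_pow (κ ^ 2 / 2) (D ^ 2) j, div_mul_div_comm]
    rw [e10]
    exact div_le_div_of_nonneg_right (min_le_right _ _) (by positivity)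

end Vale.Agent.P165.H326
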